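import Vale.Agent.P252.Main

open Matrix
open scoped ContDiff

namespace Vale.Agent.Results.P252.AffineBernsteinFails

open Vale.Agent.P252

/-- The affine Bernstein statement fails in every dimension `n ≥ 10`. -/
theorem result : ∀ n : ℕ, 10 ≤ n →
    ∃ u : (Fin n → ℝ) → ℝ, ContDiff ℝ ∞ u ∧ (∀ x, (hess u x).PosDef) ∧ AffineMaximal u ∧
      ¬ ∃ (A : Matrix (Fin n) (Fin n) ℝ) (b : Fin n → ℝ) (c : ℝ),
        ∀ x, u x = 1/2 * (x ⬝ᵥ A *ᵥ x) + b ⬝ᵥ x + c :=
  fun _ hn => exists_counterexample hn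

end Vale.Agent.Results.P252.AffineBernsteinFails
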